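import Vale.Agent.P220.R2.H180.U.Ham

/-!
# The isotopy, with its primitive
-/

open Set Filter Topology
open scoped ContDiff

set_option linter.unusedSectionVars false

namespace Vale.Agent.P220.R2.H180.T

open H57
open Vale.Agent.P220.R2.H180.U (SIso)

variable {E : Type} [NormedAddCommGroup E] [InnerProductSpace ℝ E] [FiniteDimensional ℝ E]

/-- **The isotopy.** -/
theorem core_s {P : E →L[ℝ] E} (hP : IsPr P) {e u : E} (h : Orth e u) (hPe : P e = e)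
    (hPu : P u = 0) {n : ℕ} (hn : Module.finrank ℝ E = n + 1)
    {L : Set (E × E)} (hL : IsClosedExactLagrangian n (Sph E) L)
    (hinv : ∀ g : E ≃ₗᵢ[ℝ] E, (∀ x, P x = 0 → g x = x) → ∀ z ∈ L, (g z.1, g z.2) ∈ L)
    (hinv' : ∀ g : E ≃ₗᵢ[ℝ] E, (∀ x, P x = x → g x = x) → ∀ z ∈ L, (g z.1, g z.2) ∈ L)
    (hplane : ∀ z ∈ L, ∃ a b, Orth a b ∧ P a = a ∧ P b = 0 ∧ InPl a b z.1 ∧ InPl a b z.2) :
    ∃ ι f, SIso {g | ∀ x, P (g x) = g (P x)} L ι f ∧ ∀ s, ∀ q : E, ‖q‖ = 1 →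
      ∃ a b a' b' : ℝ, (ι (s, (q, 0))).1 = a • P q + b • cp P q ∧
        (ι (s, (q, 0))).2 = a' • P q + b' • cp P q := by
  have move : ∀ a b a' b' : E, ‖a‖ = 1 → ‖b‖ = 1 → ‖a'‖ = 1 → ‖b'‖ = 1 → P a = a → P b = 0 →
      P a' = a' → P b' = 0 → ∃ g : E ≃ₗᵢ[ℝ] E, g a = a' ∧ g b = b' ∧
      (∀ z ∈ L, (g z.1, g z.2) ∈ L) ∧ ∀ z : E × E, (g z.1, g z.2) ∈ L → z ∈ L := by
    intro a b a' b' ha hb ha' hb' hPa hPb hPa' hPb'
    obtain ⟨g₁, hg₁, g₁a, g₁g, -⟩ := hP.exchange ha ha' hPa hPa'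
    obtain ⟨g₂, hg₂, g₂b, g₂g, -⟩ := hP.compl.exchange hb hb' (hP.ker_iff.1 hPb)
      (hP.ker_iff.1 hPb')
    have hg₂' : ∀ x, P x = x → g₂ x = x := fun x hx => hg₂ x (hP.ran_iff.1 hx)
    refine ⟨g₁.trans g₂, ?_, ?_, fun z hz => ?_, fun z hz => ?_⟩
    · show g₂ (g₁ a) = a'
      rw [g₁a, hg₂' _ hPa']
    · show g₂ (g₁ b) = b'
      rw [hg₁ _ hPb, g₂b]
    · exact hinv' g₂ hg₂' _ (hinv g₁ hg₁ z hz)
    · have h1 := hinv g₁ hg₁ _ (hinv' g₂ hg₂' _ hz)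
      have e1 : ∀ x, g₁ (g₂ ((g₁.trans g₂) x)) = x := fun x => by
        show g₁ (g₂ (g₂ (g₁ x))) = x
        rw [g₂g, g₁g]
      simp only [e1] at h1
      exact h1
  have hRL : ∀ z ∈ L, RR e u z ∈ L := by
    intro z hz
    obtain ⟨a, b, ho, hPa, hPb, z1, z2⟩ := hplane z hz
    have ra := refl_left h (a := a) (hP.perp' hPa hPu)
    have rb := refl_right h (b := b) (hP.perp hPe hPb)
    obtain ⟨g, ga, gb, gL, -⟩ := move a b ((Pl e u).reflection a) ((Pl e u).reflection b) ho.v1 ho.w1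
      (((Pl e u).reflection.norm_map a).trans ho.v1) (((Pl e u).reflection.norm_map b).trans ho.w1)
      hPa hPb (by rw [ra, map_sub, map_smul, hPe, hPa]) (by rw [rb, map_sub, map_smul, hPu, hPb]; simp)
    have hg : ∀ x, InPl a b x → g x = (Pl e u).reflection x := by
      intro x hx
      unfold InPl at hx
      rw [hx, map_add, map_smul, map_smul, ga, gb, map_add, map_smul, map_smul]
    have h1 := gL z hz
    rw [hg _ z1, hg _ z2] at h1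
    exact h1
  have hSL : ∀ z ∈ L, SS u z ∈ L := fun z hz =>
    hinv' (Refl u) (fun x hx => by
      rw [Refl_apply h.w1, hP.perp' hx hPu]
      simp) z hz
  have hSL' : ∀ z ∈ L, SS e z ∈ L := fun z hz =>
    hinv (Refl e) (fun x hx => by
      rw [Refl_apply h.v1, hP.perp hPe hx]
      simp) z hz
  have hmove : ∀ z ∈ L, ∀ a b, Orth a b → P a = a → P b = 0 → InPl a b z.1 → InPl a b z.2 →
      ∃ g : E ≃ₗᵢ[ℝ] E, g a = e ∧ (g z.1, g z.2) ∈ Slc e u L := by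
    intro z hz a b ho hPa hPb h4 h5
    obtain ⟨g, ga, gb, gL, -⟩ := move a b e u ho.v1 ho.w1 h.v1 h.w1 hPa hPb hPe hPu
    exact ⟨g, ga, gL z hz, h.RR_eq.2 ⟨inPl_map ga gb h4, inPl_map ga gb h5⟩⟩
  have hne : (Slc e u L).Nonempty := by
    obtain ⟨z, hz⟩ := hL.nonempty
    obtain ⟨a, b, ho, hPa, hPb, h4, h5⟩ := hplane z hz
    obtain ⟨g, -, hg⟩ := hmove z hz a b ho hPa hPb h4 h5
    exact ⟨_, hg⟩
  have hS := h.slice_closed hn hL hRL hne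
  have hInT : ∀ z ∈ Slc e u L, InT e u z := by
    intro z hz
    obtain ⟨h4, h5⟩ := cot_sph.1 (hL.sub hz.1)
    obtain ⟨h6, h7⟩ := h.RR_eq.1 hz.2
    exact ⟨h4, h6, h7, h5⟩
  have hSS : ∀ z ∈ Slc e u L, SS u z ∈ Slc e u L := by
    intro z hz
    have h4 := h.InT_SS (hInT z hz)
    exact ⟨hSL z hz.1, h.RR_eq.2 ⟨h4.p1, h4.p2⟩⟩
  have hSS' : ∀ z ∈ Slc e u L, SS e z ∈ Slc e u L := by
    intro z hz
    have h4 := InT_SSe h (hInT z hz)
    exact ⟨hSL' z hz.1, h.RR_eq.2 ⟨h4.p1, h4.p2⟩⟩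
  obtain ⟨D, hDQ, hDL, hDX⟩ := exists_base' h.circ_closed hS (h.slice_emb hS.sub)
  obtain ⟨Λ⟩ := D.exists_leaf
  obtain ⟨γ, hγ, hγ'⟩ := exists_curve h Λ hDQ hDX (by rw [hDL]; exact hSS) (by rw [hDL]; exact hSS')
  rw [hDL] at hγ
  obtain ⟨c, hc, hc1, hc2⟩ := exists_arc hγ hγ' h hInT
  refine arc_siso hP h.v1 h.w1 hPe hPu hc fun z => ?_
  constructor
  · intro hz
    obtain ⟨h4, h5⟩ := cot_sph.1 (hL.sub hz)
    obtain ⟨a, b, ho, hPa, hPb, h6, h7⟩ := hplane z hz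
    refine ⟨h4, h5, a, b, ho.v1, ho.w1, hPa, hPb, h6, h7, ?_⟩
    obtain ⟨g, ga, hg⟩ := hmove z hz a b ho hPa hPb h6 h7
    obtain ⟨τ, hτ, hcτ⟩ := hc1 _ hg
    exact ⟨τ, hτ, by rw [hcτ, wt_map ga]⟩
  · rintro ⟨h4, h5, a, b, ha, hb, hPa, hPb, h6, h7, τ, hτ, hcτ⟩
    obtain ⟨z₀, hz₀, hwz₀⟩ := hc2 τ hτ
    obtain ⟨g, ga, gb, -, gL⟩ := move a b e u ha hb h.v1 h.w1 hPa hPb hPe hPu
    have hT : InT e u (g z.1, g z.2) :=
      ⟨(g.norm_map _).trans h4, inPl_map ga gb h6, inPl_map ga gb h7,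
        (g.inner_map_map _ _).trans h5⟩
    refine gL z ?_
    have hsq : wt e (g z.1, g z.2) ^ 2 = wt e z₀ ^ 2 := by
      rw [wt_map ga]
      linear_combination (hwz₀ + hcτ) / (-2)
    rcases sq_eq_sq_iff_eq_or_eq_neg.1 hsq with h8 | h8
    · rcases h.eq_or_of_wt hT (hInT z₀ hz₀) h8 with h9 | h9
      · rw [h9]
        exact hz₀.1
      · rw [h9]
        exact hSL _ hz₀.1
    · rw [← wt_SSe h] at h8
      rcases h.eq_or_of_wt hT (InT_SSe h (hInT z₀ hz₀)) h8 with h9 | h9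
      · rw [h9]
        exact hSL' _ hz₀.1
      · rw [h9]
        exact hSL _ (hSL' _ hz₀.1)

/-- the isotopy, from the invariance -/
theorem core_sub_s (K : Submodule ℝ E) (hK : 1 ≤ Module.finrank ℝ K)
    (hK' : 1 ≤ Module.finrank ℝ Kᗮ) {n : ℕ} (hn : Module.finrank ℝ E = n + 1)
    {L : Set (E × E)} (hL : IsClosedExactLagrangian n (Sph E) L)
    (hM : Mom K.starProjection L) (hM' : Mom Kᗮ.starProjection L)
    (hinv : ∀ g : E ≃ₗᵢ[ℝ] E, (∀ x ∈ Kᗮ, g x = x) → ∀ z ∈ L, (g z.1, g z.2) ∈ L)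
    (hinv' : ∀ g : E ≃ₗᵢ[ℝ] E, (∀ x ∈ K, g x = x) → ∀ z ∈ L, (g z.1, g z.2) ∈ L) :
    ∃ ι f, SIso {g | ∀ x, K.starProjection (g x) = g (K.starProjection x)} L ι f ∧
      ∀ s, ∀ q : E, ‖q‖ = 1 → ∃ a b a' b' : ℝ,
        (ι (s, (q, 0))).1 = a • K.starProjection q + b • cp K.starProjection q ∧
        (ι (s, (q, 0))).2 = a' • K.starProjection q + b' • cp K.starProjection q := by
  obtain ⟨e, heK, he⟩ := exists_unit hK
  obtain ⟨u, huK, hu⟩ := exists_unit hK'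
  have heu : inner ℝ e u = (0 : ℝ) := Submodule.inner_right_of_mem_orthogonal heK huK
  refine core_s (isPr_sub K) ⟨he, hu, heu⟩ (Submodule.starProjection_eq_self_iff.2 heK)
    ((Submodule.starProjection_apply_eq_zero_iff K).2 huK) hn hL ?_ ?_
    (plane_sub K hK hK' hM hM')
  · intro g hg
    exact hinv g fun x hx => hg x ((Submodule.starProjection_apply_eq_zero_iff K).2 hx)
  · intro g hg
    exact hinv' g fun x hx => hg x (Submodule.starProjection_eq_self_iff.2 hx)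

end Vale.Agent.P220.R2.H180.T
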