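import Vale.Agent.P220.R2.H180.T.Eqi

/-!
# Exact isotopies of the zero section of the sphere
-/

open Set Filter Topology
open scoped ContDiff

set_option linter.unusedSectionVars false

namespace Vale.Agent.P220.R2.H180.U

open H57

variable {E : Type} [NormedAddCommGroup E] [InnerProductSpace ℝ E] [FiniteDimensional ℝ E]

/-- an equivariant exact isotopy from the zero section of the sphere to `L` -/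
structure SIso (Γ : Set (E ≃ₗᵢ[ℝ] E)) (L : Set (E × E)) (ι : ℝ × (E × E) → E × E)
    (f : ℝ × (E × E) → ℝ) : Prop where
  hι : ContDiff ℝ ∞ ι
  hf : ContDiff ℝ ∞ f
  norm : ∀ s, ∀ q : E, ‖q‖ = 1 → ‖(ι (s, (q, 0))).1‖ = 1
  orth : ∀ s, ∀ q : E, ‖q‖ = 1 → inner ℝ (ι (s, (q, 0))).1 (ι (s, (q, 0))).2 = (0 : ℝ)
  inj : ∀ s, ∀ q q' : E, ‖q‖ = 1 → ‖q'‖ = 1 → ι (s, (q, 0)) = ι (s, (q', 0)) → q = q'
  imm : ∀ s, ∀ q v : E, ‖q‖ = 1 → inner ℝ q v = (0 : ℝ) →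
    fderiv ℝ ι (s, (q, 0)) (0, (v, 0)) = 0 → v = 0
  ex : ∀ s, ∀ q v : E, ‖q‖ = 1 → inner ℝ q v = (0 : ℝ) →
    fderiv ℝ f (s, (q, 0)) (0, (v, 0)) =
      inner ℝ (ι (s, (q, 0))).2 (fderiv ℝ ι (s, (q, 0)) (0, (v, 0))).1
  zero : ∀ q : E, ‖q‖ = 1 → ι (0, (q, 0)) = (q, 0)
  one : ∀ z, z ∈ L ↔ ∃ q : E, ‖q‖ = 1 ∧ ι (1, (q, 0)) = z
  eqv : ∀ g ∈ Γ, ∀ s, ∀ q : E, ‖q‖ = 1 →
    ι (s, (g q, 0)) = (g (ι (s, (q, 0))).1, g (ι (s, (q, 0))).2)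
  eqf : ∀ g ∈ Γ, ∀ s, ∀ q : E, ‖q‖ = 1 → f (s, (g q, 0)) = f (s, (q, 0))

theorem SIso.mono {Γ Γ' : Set (E ≃ₗᵢ[ℝ] E)} {L : Set (E × E)} {ι : ℝ × (E × E) → E × E}
    {f : ℝ × (E × E) → ℝ} (h : SIso Γ L ι f) (hΓ : Γ' ⊆ Γ) : SIso Γ' L ι f :=
  ⟨h.hι, h.hf, h.norm, h.orth, h.inj, h.imm, h.ex, h.zero, h.one, fun g hg => h.eqv g (hΓ hg),
    fun g hg => h.eqf g (hΓ hg)⟩

end Vale.Agent.P220.R2.H180.U
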