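import Vale.Agent.P220.R2.H180.U.Core
import Vale.Agent.P220.R2.H180.U.One

/-!
# The equivariant isotopy with its primitive
-/

open Set Filter Topology
open scoped ContDiff

set_option linter.unusedSectionVars false

namespace Vale.Agent.P220.R2.H180.T

open H57
open Vale.Agent.P220.R2.H180.U (SIso)

variable {E : Type} [NormedAddCommGroup E] [InnerProductSpace ℝ E] [FiniteDimensional ℝ E]

/-- the constant isotopy of the zero section -/
theorem siso_zero (Γ : Set (E ≃ₗᵢ[ℝ] E)) : SIso Γ (Zs E) (fun p => p.2) (fun _ => 0) := by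
  refine ⟨contDiff_snd, contDiff_const, fun s q hq => hq, fun s q hq => inner_zero_right _,
    fun s q q' _ _ h => congrArg Prod.fst h, fun s q v _ _ h => ?_, fun s q v _ _ => ?_,
    fun q _ => rfl, fun z => ⟨fun hz => ⟨z.1, mem_Sph.1 hz.1, Prod.ext rfl hz.2.symm⟩, ?_⟩,
    fun g _ s q _ => ?_, fun g _ s q _ => rfl⟩
  · have h1 : fderiv ℝ (fun p : ℝ × (E × E) => p.2) (s, ((q, 0) : E × E)) =
        ContinuousLinearMap.snd ℝ ℝ (E × E) := fderiv_snd
    rw [h1] at h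
    exact congrArg Prod.fst h
  · rw [fderiv_fun_const]
    simp
  · rintro ⟨q, hq, rfl⟩
    exact ⟨mem_Sph.2 hq, rfl⟩
  · simp

/-- an isometry that preserves a subspace commutes with the projection to it -/
theorem comm_proj_one {K : Submodule ℝ E} {g : E ≃ₗᵢ[ℝ] E} (hg : ∀ x ∈ K, g x ∈ K) :
    (∀ x ∈ Kᗮ, g x ∈ Kᗮ) ∧ ∀ x, K.starProjection (g x) = g (K.starProjection x) := by
  have hsurj : ∀ y ∈ K, ∃ x ∈ K, g x = y := by
    intro y hy
    set G : K →ₗ[ℝ] K := ((g.toLinearEquiv : E ≃ₗ[ℝ] E) : E →ₗ[ℝ] E).restrict hg with hG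
    have h1 : Function.Injective G := by
      intro a b hab
      have h2 : g (a : E) = g (b : E) := congrArg Subtype.val hab
      exact Subtype.ext (g.injective h2)
    obtain ⟨x, hx⟩ := LinearMap.injective_iff_surjective.1 h1 ⟨y, hy⟩
    exact ⟨x, x.2, congrArg Subtype.val hx⟩
  have h1 : ∀ x ∈ Kᗮ, g x ∈ Kᗮ := by
    intro x hx
    rw [Submodule.mem_orthogonal] at hx ⊢
    intro y hy
    obtain ⟨y', hy', rfl⟩ := hsurj y hy
    rw [g.inner_map_map]
    exact hx _ hy'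
  refine ⟨h1, fun x => ?_⟩
  have h3 : x = K.starProjection x + cp K.starProjection x := (add_cp _ x).symm
  conv_lhs => rw [h3]
  rw [map_add, map_add, Submodule.starProjection_eq_self_iff.2
    (hg _ (Submodule.starProjection_apply_mem K x)),
    (Submodule.starProjection_apply_eq_zero_iff K).2 (h1 _ (by
      rw [cp_sub]
      exact Submodule.starProjection_apply_mem _ _)), add_zero]

/-- velocities of curves in the orbits are orthogonal to the momenta, two projections -/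
theorem hor_two {K : Submodule ℝ E} {Γ : Set (E ≃ₗᵢ[ℝ] E)} (hΓK : ∀ g ∈ Γ, ∀ x ∈ K, g x ∈ K)
    {q x y v : E} (hx : ∃ a b : ℝ, x = a • K.starProjection q + b • cp K.starProjection q)
    (hy : ∃ a b : ℝ, y = a • K.starProjection q + b • cp K.starProjection q)
    {c : ℝ → E} (hc0 : c 0 = x) (hc : HasDerivAt c v 0)
    (hcΓ : ∀ᶠ t in 𝓝 (0 : ℝ), ∃ g ∈ Γ, g x = c t) : inner ℝ y v = (0 : ℝ) := by
  have hP := isPr_sub K
  have hcp : ∀ g ∈ Γ, ∀ x, cp K.starProjection (g x) = g (cp K.starProjection x) := by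
    intro g hg x
    rw [cp_apply, cp_apply, (comm_proj_one (hΓK g hg)).2, map_sub]
  have key : ∀ (R : E →L[ℝ] E), (∀ x y, (inner ℝ (R x) y : ℝ) = inner ℝ x (R y)) →
      (∀ x, R (R x) = R x) → (∀ g ∈ Γ, ∀ x, R (g x) = g (R x)) → (∃ a : ℝ, R x = a • R q) →
      (inner ℝ (R q) v : ℝ) = 0 := by
    intro R hRs hRR hRg ⟨a, ha⟩
    have d1 : HasDerivAt (fun t => R (c t)) (R v) 0 := R.hasFDerivAt.comp_hasDerivAt 0 hc
    have h1 : (inner ℝ (R x) (R v) : ℝ) = 0 := by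
      have d2 := d1.inner ℝ d1
      have h3 : (fun t => (inner ℝ (R (c t)) (R (c t)) : ℝ)) =ᶠ[𝓝 0]
          fun _ => (inner ℝ (R x) (R x) : ℝ) := by
        filter_upwards [hcΓ] with t ht
        obtain ⟨g, hg, hgx⟩ := ht
        rw [← hgx, hRg g hg, g.inner_map_map]
      have h4 := (d2.congr_of_eventuallyEq h3.symm).unique
        (hasDerivAt_const (0 : ℝ) (inner ℝ (R x) (R x) : ℝ))
      rw [hc0, real_inner_comm (R x) (R v)] at h4
      linarith
    have h2 : (inner ℝ (R q) v : ℝ) = inner ℝ (R q) (R v) := by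
      rw [← hRs (R q) v, hRR]
    rw [h2]
    by_cases h5 : a = 0
    · have h6 : R x = 0 := by rw [ha, h5, zero_smul]
      have h7 : R v = 0 := by
        refine d1.unique ((hasDerivAt_const (0 : ℝ) (0 : E)).congr_of_eventuallyEq ?_)
        filter_upwards [hcΓ] with t ht
        obtain ⟨g, hg, hgx⟩ := ht
        rw [← hgx, hRg g hg, h6, map_zero]
      rw [h7, inner_zero_right]
    · rw [ha, inner_smul_left] at h1
      rcases mul_eq_zero.1 h1 with h6 | h6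
      · exact absurd h6 h5
      · exact h6
  obtain ⟨a, b, hab⟩ := hx
  obtain ⟨a', b', hab'⟩ := hy
  have k1 := key K.starProjection hP.symm hP.idem (fun g hg x => (comm_proj_one (hΓK g hg)).2 x)
    ⟨a, by rw [hab, map_add, map_smul, map_smul, hP.idem, hP.P_cp, smul_zero, add_zero]⟩
  have k2 := key (cp K.starProjection) hP.compl.symm hP.compl.idem hcp
    ⟨b, by rw [hab, map_add, map_smul, map_smul, hP.cp_P, hP.compl.idem, smul_zero, zero_add]⟩
  rw [hab', inner_add_left, inner_smul_left, inner_smul_left, k1, k2, mul_zero, mul_zero, add_zero]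

/-- velocities of curves in the orbits are orthogonal to the momenta, one axis -/
theorem hor_one {e : E} (_he : ‖e‖ = 1) {Γ : Set (E ≃ₗᵢ[ℝ] E)} (hΓe : ∀ g ∈ Γ, g e = e)
    {q x y v : E} (hx : ∃ a b : ℝ, x = a • e + b • H180.pr e q)
    (hy : ∃ a b : ℝ, y = a • e + b • H180.pr e q) (hxv : inner ℝ x v = (0 : ℝ))
    {c : ℝ → E} (hc0 : c 0 = x) (hc : HasDerivAt c v 0)
    (hcΓ : ∀ᶠ t in 𝓝 (0 : ℝ), ∃ g ∈ Γ, g x = c t) : inner ℝ y v = (0 : ℝ) := by
  obtain ⟨a, b, hab⟩ := hx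
  obtain ⟨a', b', hab'⟩ := hy
  have h1 : (inner ℝ e v : ℝ) = 0 := by
    have d1 : HasDerivAt (fun t => (inner ℝ e (c t) : ℝ)) (inner ℝ e v) 0 := by
      simpa using (hasDerivAt_const (0 : ℝ) e).inner ℝ hc
    refine d1.unique ((hasDerivAt_const (0 : ℝ) (inner ℝ e x : ℝ)).congr_of_eventuallyEq ?_)
    filter_upwards [hcΓ] with t ht
    obtain ⟨g, hg, hgx⟩ := ht
    rw [← hgx]
    conv_lhs => rw [← hΓe g hg]
    exact g.inner_map_map _ _
  have h2 : (inner ℝ (H180.pr e q) v : ℝ) = 0 := by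
    by_cases hb : b = 0
    · have h3 : ∀ g ∈ Γ, g x = x := fun g hg => by
        rw [hab, hb, zero_smul, add_zero, map_smul, hΓe g hg]
      have h4 : v = 0 := by
        refine hc.unique ((hasDerivAt_const (0 : ℝ) x).congr_of_eventuallyEq ?_)
        filter_upwards [hcΓ] with t ht
        obtain ⟨g, hg, hgx⟩ := ht
        rw [← hgx, h3 g hg]
      rw [h4, inner_zero_right]
    · rw [hab, inner_add_left, inner_smul_left, inner_smul_left, h1, mul_zero, zero_add] at hxv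
      rcases mul_eq_zero.1 hxv with h6 | h6
      · exact absurd h6 hb
      · exact h6
  rw [hab', inner_add_left, inner_smul_left, inner_smul_left, h1, h2, mul_zero, mul_zero, add_zero]

/-- **The isotopy, equivariant under a set of isometries, with its primitive.** -/
theorem exists_siso {n : ℕ} (hn : Module.finrank ℝ E = n + 1) (h2 : 2 ≤ n) (K : Submodule ℝ E)
    {L : Set (E × E)} (hL : IsClosedExactLagrangian n (Sph E) L)
    (hM : Mom K.starProjection L) (hM' : Mom Kᗮ.starProjection L)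
    (Γ : Set (E ≃ₗᵢ[ℝ] E)) (hΓK : ∀ g ∈ Γ, ∀ x ∈ K, g x ∈ K)
    (hΓL : ∀ g ∈ Γ, ∀ z ∈ L, (g z.1, g z.2) ∈ L) :
    ∃ (ι : ℝ × (E × E) → E × E) (f : ℝ × (E × E) → ℝ), SIso Γ L ι f ∧
      ∀ s, ∀ q v : E, ‖q‖ = 1 → inner ℝ (ι (s, (q, 0))).1 v = (0 : ℝ) → ∀ c : ℝ → E,
        c 0 = (ι (s, (q, 0))).1 → HasDerivAt c v 0 →
        (∀ᶠ t in 𝓝 (0 : ℝ), ∃ g ∈ Γ, g (ι (s, (q, 0))).1 = c t) →
        inner ℝ (ι (s, (q, 0))).2 v = (0 : ℝ) := by
  have hKK := K.orthogonal_orthogonal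
  have htriv : L = Zs E → ∃ (ι : ℝ × (E × E) → E × E) (f : ℝ × (E × E) → ℝ), SIso Γ L ι f ∧
      ∀ s, ∀ q v : E, ‖q‖ = 1 → inner ℝ (ι (s, (q, 0))).1 v = (0 : ℝ) → ∀ c : ℝ → E,
        c 0 = (ι (s, (q, 0))).1 → HasDerivAt c v 0 →
        (∀ᶠ t in 𝓝 (0 : ℝ), ∃ g ∈ Γ, g (ι (s, (q, 0))).1 = c t) →
        inner ℝ (ι (s, (q, 0))).2 v = (0 : ℝ) := by
    rintro rfl
    exact ⟨_, _, siso_zero Γ, fun s q v _ _ c _ _ _ => inner_zero_left _⟩
  have htwo : ∀ M : Submodule ℝ E, (∀ g ∈ Γ, ∀ x ∈ M, g x ∈ M) →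
      (∃ ι f, SIso {g | ∀ x, M.starProjection (g x) = g (M.starProjection x)} L ι f ∧
        ∀ s, ∀ q : E, ‖q‖ = 1 → ∃ a b a' b' : ℝ,
          (ι (s, (q, 0))).1 = a • M.starProjection q + b • cp M.starProjection q ∧
          (ι (s, (q, 0))).2 = a' • M.starProjection q + b' • cp M.starProjection q) →
      ∃ (ι : ℝ × (E × E) → E × E) (f : ℝ × (E × E) → ℝ), SIso Γ L ι f ∧
      ∀ s, ∀ q v : E, ‖q‖ = 1 → inner ℝ (ι (s, (q, 0))).1 v = (0 : ℝ) → ∀ c : ℝ → E,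
        c 0 = (ι (s, (q, 0))).1 → HasDerivAt c v 0 →
        (∀ᶠ t in 𝓝 (0 : ℝ), ∃ g ∈ Γ, g (ι (s, (q, 0))).1 = c t) →
        inner ℝ (ι (s, (q, 0))).2 v = (0 : ℝ) := by
    rintro M hΓM ⟨ι, f, h1, h3⟩
    refine ⟨ι, f, h1.mono fun g hg => (comm_proj_one (hΓM g hg)).2, fun s q v hq hv c hc0 hc hcΓ => ?_⟩
    obtain ⟨a, b, a', b', h4, h5⟩ := h3 s q hq
    exact hor_two hΓM ⟨a, b, h4⟩ ⟨a', b', h5⟩ hc0 hc hcΓ
  have hline : ∀ M : Submodule ℝ E, Module.finrank ℝ M = 1 → Mom M.starProjection L →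
      Mom Mᗮ.starProjection L → (∀ g ∈ Γ, ∀ x ∈ M, g x ∈ M) →
      ∃ (ι : ℝ × (E × E) → E × E) (f : ℝ × (E × E) → ℝ), SIso Γ L ι f ∧
      ∀ s, ∀ q v : E, ‖q‖ = 1 → inner ℝ (ι (s, (q, 0))).1 v = (0 : ℝ) → ∀ c : ℝ → E,
        c 0 = (ι (s, (q, 0))).1 → HasDerivAt c v 0 →
        (∀ᶠ t in 𝓝 (0 : ℝ), ∃ g ∈ Γ, g (ι (s, (q, 0))).1 = c t) →
        inner ℝ (ι (s, (q, 0))).2 v = (0 : ℝ) := by
    intro M hM1 hM hM' hΓM
    have hfr := M.finrank_add_finrank_orthogonal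
    have hMM := M.orthogonal_orthogonal
    obtain ⟨e, heM, he⟩ := exists_unit (K := M) (by omega)
    have hsp := line_span hM1 heM he
    have h5 : ∀ g : E ≃ₗᵢ[ℝ] E, (∀ x ∈ M, g x = x) → ∀ z ∈ L, (g z.1, g z.2) ∈ L := fun g hg =>
      inv_sub hn hL Mᗮ hM' (by omega) g (fun x hx => hg x (by rwa [hMM] at hx))
    by_cases hflip : ∃ γ ∈ Γ, γ e ≠ e
    · obtain ⟨γ, hγΓ, hγ⟩ := hflip
      exact htwo M hΓM (core_sub_s M (by omega) (by omega) hn hL hM hM'
        (inv_line hM1 (hΓM γ hγΓ) heM he hγ (hΓL γ hγΓ) h5) h5)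
    · push Not at hflip
      obtain ⟨ι, f, h1, h3⟩ := main_siso hn h2 he hL (fun g hg hd z hz => h5 g (fun x hx => by
        obtain ⟨k, rfl⟩ := hsp x hx
        rw [map_smul, hg]) z hz)
      refine ⟨ι, f, h1.mono hflip, fun s q v hq hv c hc0 hc hcΓ => ?_⟩
      obtain ⟨a, b, a', b', h4, h5⟩ := h3 s q hq
      exact hor_one he hflip ⟨a, b, h4⟩ ⟨a', b', h5⟩ hv hc0 hc hcΓ
  rcases Nat.lt_or_ge (Module.finrank ℝ K) 2 with hK | hK
  · rcases Nat.eq_zero_or_pos (Module.finrank ℝ K) with hK0 | hK0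
    · refine htriv (eq_Zs hn (by omega) hL (M := Kᗮ) ?_ hM')
      rw [hKK]
      exact Submodule.finrank_eq_zero.1 hK0
    · exact hline K (by omega) hM hM' hΓK
  rcases Nat.lt_or_ge (Module.finrank ℝ Kᗮ) 2 with hK' | hK'
  · rcases Nat.eq_zero_or_pos (Module.finrank ℝ Kᗮ) with hK0 | hK0
    · exact htriv (eq_Zs hn (by omega) hL (Submodule.finrank_eq_zero.1 hK0) hM)
    · exact hline Kᗮ (by omega) hM'
        (cast_sub (p := fun P => Mom P L) K.orthogonal_orthogonal.symm hM)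
        (fun g hg => (comm_proj_one (hΓK g hg)).1)
  exact htwo K hΓK (core_sub_s K (by omega) (by omega) hn hL hM hM' (inv_sub hn hL K hM hK)
    (fun g hg => inv_sub hn hL Kᗮ hM' hK' g (fun x hx => hg x (by rwa [hKK] at hx))))

end Vale.Agent.P220.R2.H180.T
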