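import Vale.Agent.P220.R2.H180.U.Def

/-!
# The isotopy over an arc, with its primitive
-/

open Set Filter Topology
open scoped ContDiff

set_option linter.unusedSectionVars false

namespace Vale.Agent.P220.R2.H180.T

open H57
open Vale.Agent.P220.R2.H180.U (SIso)

variable {E : Type} [NormedAddCommGroup E] [InnerProductSpace ℝ E] [FiniteDimensional ℝ E]

/-- **The isotopy of the zero section to the Lagrangian over an arc.** -/
theorem arc_siso {P : E →L[ℝ] E} (hP : IsPr P) {a₀ b₀ : E} (ha₀ : ‖a₀‖ = 1) (hb₀ : ‖b₀‖ = 1)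
    (hPa₀ : P a₀ = a₀) (hPb₀ : P b₀ = 0)
    {c : ℝ → ℂ} (hc : IsArc c) {L : Set (E × E)}
    (hL : ∀ z, z ∈ L ↔ ‖z.1‖ = 1 ∧ inner ℝ z.1 z.2 = (0 : ℝ) ∧
      ∃ a b, ‖a‖ = 1 ∧ ‖b‖ = 1 ∧ P a = a ∧ P b = 0 ∧ InPl a b z.1 ∧ InPl a b z.2 ∧
      ∃ τ ∈ Icc (0 : ℝ) 1, c τ = 2 * wt a z ^ 2 - 1) :
    ∃ ι f, SIso {g | ∀ x, P (g x) = g (P x)} L ι f ∧ ∀ s, ∀ q : E, ‖q‖ = 1 →
      ∃ a b a' b' : ℝ, (ι (s, (q, 0))).1 = a • P q + b • cp P q ∧
        (ι (s, (q, 0))).2 = a' • P q + b' • cp P q := by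
  obtain ⟨A, B, hF⟩ := hc.exists_fam2
  obtain ⟨G, hG, hG1⟩ := exists_invsqrt
  obtain ⟨UQ, r, hr⟩ := exists_sph_ret (E := E)
  obtain ⟨UK, ρ, hρ, hTn⟩ := exists_Zs_ret (E := E)
  have hA := hF.hA
  have hB := hF.hB
  have cQ : IsCompact (Sph E) := isCompact_sphere _ _
  have cK : IsCompact (Zs E) := by
    have : Zs E = Sph E ×ˢ {0} := rfl
    rw [this]
    exact cQ.prod isCompact_singleton
  have hpt : ∀ s, ∀ z ∈ Zs E, Pt P A B s z := fun s z hz => hF.pt hP s (mem_Sph.1 hz.1)
  have hinj : ∀ s, ∀ z ∈ Zs E, ∀ z' ∈ Zs E, iso P G A B (s, z) = iso P G A B (s, z') → z = z' := by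
    intro s z hz z' hz' h
    have p := hpt s z hz
    have p' := hpt s z' hz'
    have hy : xy P A B (s, z) = xy P A B (s, z') := congrArg Prod.snd h
    have ha : xa P A B (s, z) = xa P A B (s, z') := by
      rw [p.inv hG1, p'.inv hG1, h]
    have hq := mem_Sph.1 hz.1
    have hq' := mem_Sph.1 hz'.1
    have k1 : (A (s, tau P z.1)).re • P z.1 = (A (s, tau P z'.1)).re • P z'.1 := by
      rw [← p.pa, ← p'.pa, ha]
    have k2 : (A (s, tau P z.1)).im • P z.1 = (A (s, tau P z'.1)).im • P z'.1 := by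
      rw [← p.py, ← p'.py, hy]
    have k3 : (B (s, tau P z.1)).re • cp P z.1 = (B (s, tau P z'.1)).re • cp P z'.1 := by
      rw [← p.qa, ← p'.qa, ha]
    have k4 : (B (s, tau P z.1)).im • cp P z.1 = (B (s, tau P z'.1)).im • cp P z'.1 := by
      rw [← p.qy, ← p'.qy, hy]
    have h1 := eq_of_smul k1 k2
    rw [hP.P_sq hq, hP.P_sq hq'] at h1
    push_cast at h1
    have h2 := hF.inj s _ (hP.tau_mem hq) _ (hP.tau_mem hq') h1
    rw [← h2] at k1 k2 k3 k4
    have h3 := smul_cancel (hF.ane s _ (hP.tau_mem hq)) k1 k2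
    have h4 := smul_cancel (hF.bne s _ (hP.tau_mem hq)) k3 k4
    have h5 : z.1 = z'.1 := by
      rw [← add_cp P z.1, ← add_cp P z'.1, h3, h4]
    exact Prod.ext h5 (by rw [hz.2, hz'.2])
  have himm : ∀ s, ∀ z ∈ Zs E, ∀ v : E × E, v.2 = 0 → inner ℝ z.1 v.1 = (0 : ℝ) →
      fderiv ℝ (iso P G A B) (s, z) (0, v) = 0 → v = 0 := by
    intro s z hz v hv2 hv1 h
    have hq := mem_Sph.1 hz.1
    have hy : fderiv ℝ (xy P A B) (s, z) (0, v) = 0 := by
      rw [← diso_snd hG hA hB, h]
      rfl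
    obtain ⟨k, hk, hk2⟩ := diso_fst (P := P) hG hA hB s z v
    have hGne : G (1 + ‖xy P A B (s, z)‖ ^ 2) ≠ 0 := by
      rw [(hpt s z hz).Gval hG1]
      exact inv_ne_zero (Real.sqrt_pos.2 (by positivity)).ne'
    have ha : fderiv ℝ (xa P A B) (s, z) (0, v) = 0 := by
      rw [h, hk hy, zero_smul, zero_add] at hk2
      exact (smul_eq_zero.1 hk2.symm).resolve_left hGne
    rw [dxa hA hB] at ha
    rw [dxy hA hB] at hy
    have hτ := hP.tau_mem hq
    have pp := hP.P_sq hq
    have ppv : (inner ℝ (P z.1) (P v.1) : ℝ) = -inner ℝ (cp P z.1) (cp P v.1) := by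
      rw [hP.inner_P, hv1, zero_sub]
    have hA0 := hF.ane s _ hτ
    have hB0 := hF.bne s _ hτ
    have hI := hF.imm s _ hτ
    set δ : ℝ := inner ℝ (cp P z.1) (cp P v.1) with hδ
    set τ := tau P z.1 with hτd
    -- the components
    have ha1 := congrArg P ha
    have ha2 := congrArg (cp P) ha
    have hy1 := congrArg P hy
    have hy2 := congrArg (cp P) hy
    simp only [map_add, map_smul, map_zero, hP.idem, hP.P_cp, hP.cp_P, hP.cp_cp, smul_zero,
      add_zero, zero_add] at ha1 ha2 hy1 hy2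
    have i1 := congrArg (fun x => (inner ℝ (P z.1) x : ℝ)) ha1
    have i2 := congrArg (fun x => (inner ℝ (P z.1) x : ℝ)) hy1
    simp only [inner_add_right, inner_smul_right, pp, ppv, inner_zero_right] at i1 i2
    have hδ0 : δ = 0 := by
      by_contra hne
      apply hI
      have j1 : 2 * (fderiv ℝ A (s, τ) (0, 1)).re * (1 - τ) - (A (s, τ)).re = 0 := by
        refine mul_left_cancel₀ hne ?_
        linear_combination i1
      have j2 : 2 * (fderiv ℝ A (s, τ) (0, 1)).im * (1 - τ) - (A (s, τ)).im = 0 := by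
        refine mul_left_cancel₀ hne ?_
        linear_combination i2
      have j3 : 2 * fderiv ℝ A (s, τ) (0, 1) * (1 - τ) - A (s, τ) = 0 := by
        apply Complex.ext
        · simpa using j1
        · simpa using j2
      linear_combination (A (s, τ)) * j3
    rw [hδ0] at ha1 ha2 hy1 hy2
    simp only [mul_zero, zero_mul, zero_smul, add_zero] at ha1 ha2 hy1 hy2
    have v1 : P v.1 = 0 := smul_cancel hA0 (by rw [ha1, smul_zero]) (by rw [hy1, smul_zero])
    have v2 : cp P v.1 = 0 := smul_cancel hB0 (by rw [ha2, smul_zero]) (by rw [hy2, smul_zero])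
    have h5 : v.1 = 0 := by rw [← add_cp P v.1, v1, v2, add_zero]
    exact Prod.ext h5 hv2
  have hexx : ∀ s, ∀ z ∈ Zs E, ∀ v : E × E, v.2 = 0 → inner ℝ z.1 v.1 = (0 : ℝ) →
      fderiv ℝ (prim P G A B) (s, z) (0, v) =
        inner ℝ (iso P G A B (s, z)).2 (fderiv ℝ (iso P G A B) (s, z) (0, v)).1 := by
    intro s z hz v hv2 hv1
    have hq := mem_Sph.1 hz.1
    have p := hpt s z hz
    obtain ⟨k, -, hk2⟩ := diso_fst (P := P) hG hA hB s z v
    have hay := p.ay
    rw [real_inner_comm] at hay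
    rw [dprim hG hA hB, hk2, inner_add_right, inner_smul_right, inner_smul_right]
    have h0 : (iso P G A B (s, z)).2 = xy P A B (s, z) := rfl
    rw [h0, hay, mul_zero, zero_add, dxa hA hB]
    have hy : xy P A B (s, z) = (A (s, tau P z.1)).im • P z.1 +
      (B (s, tau P z.1)).im • cp P z.1 := rfl
    have pp := hP.P_sq hq
    have qq := tau_eq P z.1
    have ppv : (inner ℝ (P z.1) (P v.1) : ℝ) = -inner ℝ (cp P z.1) (cp P v.1) := by
      rw [hP.inner_P, hv1, zero_sub]
    have hG3 : G (1 + ‖xy P A B (s, z)‖ ^ 2) = G (1 + ((A (s, tau P z.1)).im ^ 2 *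
        (1 - tau P z.1) + (B (s, tau P z.1)).im ^ 2 * tau P z.1)) := by
      rw [p.y2]
    rw [hG3, hy]
    simp only [inner_add_left, inner_add_right, inner_smul_left, inner_smul_right, pp, qq, ppv,
      hP.P_orth, hP.orth_P, dens]
    simp
    ring
  -- the end points
  have h0 : ∀ z ∈ Zs E, iso P G A B (0, z) = z := by
    intro z hz
    have hq := mem_Sph.1 hz.1
    have hτ := hP.tau_mem hq
    have hA0 := hF.A0 _ hτ
    have hB0 := hF.B0 _ hτ
    have hy : xy P A B (0, z) = 0 := by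
      have : xy P A B (0, z) = (A (0, tau P z.1)).im • P z.1 + (B (0, tau P z.1)).im • cp P z.1 := rfl
      rw [this, hA0, hB0]
      simp
    have ha : xa P A B (0, z) = z.1 := by
      have : xa P A B (0, z) = (A (0, tau P z.1)).re • P z.1 + (B (0, tau P z.1)).re • cp P z.1 := rfl
      rw [this, hA0, hB0]
      simp only [Complex.one_re, one_smul]
      exact add_cp P z.1
    have : iso P G A B (0, z) = (G (1 + ‖xy P A B (0, z)‖ ^ 2) • xa P A B (0, z), xy P A B (0, z)) := rfl
    rw [this, hy, ha, hG1 _ (by simp; norm_num)]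
    simp only [norm_zero]
    refine Prod.ext ?_ hz.2.symm
    simp
  have h1 : ∀ z, z ∈ L ↔ ∃ q, ‖q‖ = 1 ∧ iso P G A B (1, (q, 0)) = z := by
    intro z
    rw [hL]
    constructor
    · rintro ⟨hz1, hz2, a, b, ha, hb, hPa, hPb, hab1, hab2, τ, hτ, hcτ⟩
      have hab : (inner ℝ a b : ℝ) = 0 := by
        rw [← hPa, hP.symm, hPb, inner_zero_right]
      have ho : Orth a b := ⟨ha, hb, hab⟩
      have hsq : 0 < 1 + ‖z.2‖ ^ 2 := by positivity
      have hrel := ho.wt_rel ⟨hz1, hab1, hab2, hz2⟩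
      have hC1 := hF.C1 τ hτ
      have hr1 := hF.rel 1 τ hτ
      have w1 : wt a z ^ 2 = A (1, τ) ^ 2 * ((1 - τ : ℝ) : ℂ) := by
        push_cast
        rw [hcτ] at hC1
        linear_combination -hC1 / 2
      have w2 : wt b z ^ 2 = B (1, τ) ^ 2 * ((τ : ℝ) : ℂ) := by
        push_cast at w1
        linear_combination hrel - w1 - hr1
      obtain ⟨m, hm, hm1⟩ := sq_root (by linarith [hτ.2]) w1
      obtain ⟨m', hm', hm1'⟩ := sq_root hτ.1 w2
      set q : E := m • a + m' • b with hq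
      have hPq : P q = m • a := by
        rw [hq, map_add, map_smul, map_smul, hPa, hPb, smul_zero, add_zero]
      have hQq : cp P q = m' • b := by
        rw [cp_apply, hPq, hq]
        abel
      have htq : tau P q = τ := by
        unfold tau
        rw [hQq, norm_smul, hb, mul_one, Real.norm_eq_abs, sq_abs, hm']
      have hqn : ‖q‖ = 1 := by
        rw [← sq_eq_sq₀ (norm_nonneg _) zero_le_one, ← real_inner_self_eq_norm_sq, hq]
        simp only [inner_add_left, inner_add_right, inner_smul_left, inner_smul_right, ho.vv, ho.ww,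
          ho.vw, ho.wv]
        simp
        linear_combination hm + hm'
      refine ⟨q, hqn, ?_⟩
      have p := hF.pt hP 1 (z := (q, (0 : E))) hqn
      have a1 : inner ℝ a z.1 * √(1 + ‖z.2‖ ^ 2) = m * (A (1, τ)).re := by
        rw [← wt_re, hm1]
        simp
      have a2 : inner ℝ a z.2 = m * (A (1, τ)).im := by
        rw [← wt_im, hm1]
        simp
      have b1 : inner ℝ b z.1 * √(1 + ‖z.2‖ ^ 2) = m' * (B (1, τ)).re := by
        rw [← wt_re, hm1']
        simp
      have b2 : inner ℝ b z.2 = m' * (B (1, τ)).im := by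
        rw [← wt_im, hm1']
        simp
      have hy : xy P A B (1, (q, (0 : E))) = z.2 := by
        have : xy P A B (1, (q, (0 : E))) = (A (1, tau P q)).im • P q +
          (B (1, tau P q)).im • cp P q := rfl
        rw [this, htq, hPq, hQq, smul_smul, smul_smul, mul_comm, ← a2, mul_comm, ← b2]
        exact hab2.symm
      have hx : xa P A B (1, (q, (0 : E))) = √(1 + ‖z.2‖ ^ 2) • z.1 := by
        have : xa P A B (1, (q, (0 : E))) = (A (1, tau P q)).re • P q +
          (B (1, tau P q)).re • cp P q := rfl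
        rw [this, htq, hPq, hQq, smul_smul, smul_smul, mul_comm (A (1, τ)).re m, ← a1,
          mul_comm (B (1, τ)).re m', ← b1]
        conv_rhs => rw [hab1]
        rw [smul_add, smul_smul, smul_smul, mul_comm √(1 + ‖z.2‖ ^ 2) (inner ℝ a z.1),
          mul_comm √(1 + ‖z.2‖ ^ 2) (inner ℝ b z.1)]
      have : iso P G A B (1, (q, (0 : E))) = (G (1 + ‖xy P A B (1, (q, (0 : E)))‖ ^ 2) •
        xa P A B (1, (q, (0 : E))), xy P A B (1, (q, (0 : E)))) := rfl
      rw [this, p.Gval hG1, hy, hx, smul_smul, inv_mul_cancel₀ (Real.sqrt_pos.2 hsq).ne', one_smul]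
    · rintro ⟨q, hq, rfl⟩
      have p := hF.pt hP 1 (z := (q, (0 : E))) hq
      have hτ := hP.tau_mem hq
      have key : ∀ (x y₀ : E) (R : E → Prop), ‖y₀‖ = 1 → R y₀ → (∀ k : ℝ, R (k • x)) →
          ∃ u : E, ‖u‖ = 1 ∧ R u ∧ ∃ k : ℝ, x = k • u := by
        intro x y₀ R hy₀ hR hRx
        by_cases h2 : x = 0
        · exact ⟨y₀, hy₀, hR, 0, by rw [h2, zero_smul]⟩
        · refine ⟨‖x‖⁻¹ • x, ?_, hRx _, ‖x‖, ?_⟩
          · rw [norm_smul, norm_inv, norm_norm]
            exact inv_mul_cancel₀ (norm_ne_zero_iff.2 h2)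
          · rw [smul_smul, mul_inv_cancel₀ (norm_ne_zero_iff.2 h2), one_smul]
      obtain ⟨a, ha, hPa, k, hk⟩ := key (P q) a₀ (fun x => P x = x) ha₀ hPa₀ (fun k => by
        rw [map_smul, hP.idem])
      obtain ⟨b, hb, hPb, k', hk'⟩ := key (cp P q) b₀ (fun x => P x = 0) hb₀ hPb₀ (fun k => by
        rw [map_smul, hP.P_cp, smul_zero])
      have hab : (inner ℝ a b : ℝ) = 0 := by
        rw [← hPa, hP.symm, hPb, inner_zero_right]
      have ho : Orth a b := ⟨ha, hb, hab⟩
      refine ⟨p.norm hG1, p.orth, a, b, ha, hb, hPa, hPb, ?_, ?_, tau P q, hτ, ?_⟩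
      · refine InPl.smul ha hb hab (G (1 + ‖xy P A B (1, (q, (0 : E)))‖ ^ 2) *
          ((A (1, tau P q)).re * k)) (G (1 + ‖xy P A B (1, (q, (0 : E)))‖ ^ 2) *
          ((B (1, tau P q)).re * k')) ?_
        have : (iso P G A B (1, (q, (0 : E)))).1 = G (1 + ‖xy P A B (1, (q, (0 : E)))‖ ^ 2) •
          ((A (1, tau P q)).re • P q + (B (1, tau P q)).re • cp P q) := rfl
        rw [this, hk, hk', smul_add, smul_smul, smul_smul, smul_smul, smul_smul, mul_assoc,
          mul_assoc]
      · refine InPl.smul ha hb hab ((A (1, tau P q)).im * k) ((B (1, tau P q)).im * k') ?_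
        have : (iso P G A B (1, (q, (0 : E)))).2 = (A (1, tau P q)).im • P q +
          (B (1, tau P q)).im • cp P q := rfl
        rw [this, hk, hk', smul_smul, smul_smul]
      · have hkk : k ^ 2 = 1 - tau P q := by
          rw [← hP.P_sq hq, hk, inner_smul_left, inner_smul_right, ho.vv]
          simp
          ring
        have hkk' : (k : ℂ) ^ 2 = 1 - (tau P q : ℂ) := by exact_mod_cast hkk
        have haP : ∀ x, (inner ℝ a x : ℝ) = inner ℝ a (P x) := by
          intro x
          rw [← hP.symm, hPa]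
        have r1 : (wt a (iso P G A B (1, (q, (0 : E))))).re = (A (1, tau P q)).re * k := by
          rw [wt_re, mul_comm, ← inner_smul_right, ← p.inv hG1, haP, p.pa]
          change inner ℝ a ((A (1, tau P q)).re • P q) = (A (1, tau P q)).re * k
          rw [hk, inner_smul_right, inner_smul_right, ho.vv, mul_one]
        have r2 : (wt a (iso P G A B (1, (q, (0 : E))))).im = (A (1, tau P q)).im * k := by
          rw [wt_im]
          change inner ℝ a (xy P A B (1, (q, (0 : E)))) = (A (1, tau P q)).im * k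
          rw [haP, p.py]
          change inner ℝ a ((A (1, tau P q)).im • P q) = (A (1, tau P q)).im * k
          rw [hk, inner_smul_right, inner_smul_right, ho.vv, mul_one]
        have r3 : wt a (iso P G A B (1, (q, (0 : E)))) = A (1, tau P q) * k := by
          apply Complex.ext
          · rw [r1]
            simp
          · rw [r2]
            simp
        rw [← hF.C1 _ hτ, r3, mul_pow, hkk']
  have hZ : ∀ q : E, ‖q‖ = 1 → ((q, 0) : E × E) ∈ Zs E := fun q hq => ⟨mem_Sph.2 hq, rfl⟩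
  refine ⟨iso P G A B, prim P G A B, ⟨iso_smooth hG hA hB, prim_smooth hG hA hB,
    fun s q hq => (hpt s _ (hZ q hq)).norm hG1, fun s q hq => (hpt s _ (hZ q hq)).orth,
    fun s q q' hq hq' h => congrArg Prod.fst (hinj s _ (hZ q hq) _ (hZ q' hq') h),
    fun s q v hq hv h => congrArg Prod.fst (himm s _ (hZ q hq) (v, 0) rfl hv h),
    fun s q v hq hv => hexx s _ (hZ q hq) (v, 0) rfl hv,
    fun q hq => h0 _ (hZ q hq), h1, fun g hg s q hq => ?_, fun g hg s q hq => ?_⟩,
    fun s q hq => ⟨G (1 + ‖xy P A B (s, ((q, 0) : E × E))‖ ^ 2) * (A (s, tau P q)).re,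
      G (1 + ‖xy P A B (s, ((q, 0) : E × E))‖ ^ 2) * (B (s, tau P q)).re,
      (A (s, tau P q)).im, (B (s, tau P q)).im, ?_, rfl⟩⟩
  · have h2 := iso_equiv P G A B hg s ((q, 0) : E × E)
    rw [act_apply, act_apply, map_zero] at h2
    exact h2
  · have h2 : ∀ x, cp P (g x) = g (cp P x) := fun x => by
      rw [cp_apply, cp_apply, hg, map_sub]
    have h3 : tau P (g q) = tau P q := by
      unfold tau
      rw [h2, LinearIsometryEquiv.norm_map]
    unfold prim
    simp only [h3]
  · have h2 : (iso P G A B (s, ((q, 0) : E × E))).1 = G (1 + ‖xy P A B (s, ((q, 0) : E × E))‖ ^ 2) •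
      ((A (s, tau P q)).re • P q + (B (s, tau P q)).re • cp P q) := rfl
    rw [h2, smul_add, smul_smul, smul_smul]

end Vale.Agent.P220.R2.H180.T
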